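import Vale.Agent.P173B.Ess
import Vale.Agent.P173B.Est
import Vale.Agent.P173B.Lin
import Mathlib.Analysis.CStarAlgebra.Matrix

/-! The continuation argument. -/

namespace Vale.Agent.P173B

open Function Finsupp Vale.Agent.P174

set_option linter.unusedSectionVars false

variable {G S R J : Type*} [Group G] (π : S → G)

lemma exists_K {M : Type*} [NormedAddCommGroup M] [NormedSpace ℝ M] [FiniteDimensional ℝ M]
    (E : Finset (G × S)) {X : Type*} (F : Finset X) (φ : X → G × S →₀ ℤ) {T : Set (G × S)}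
    (hT : ∀ k : G → Prop, (∀ e ∈ T, k e.1 = k (e.1 * π e.2)) →
      ∀ e ∈ (E : Set (G × S)), k e.1 = k (e.1 * π e.2)) (hTE : T ⊆ E)
    (hH : ∀ v : G × S → ℝ, (∀ f ∈ F, linearCombination ℤ v (φ f) = 0) →
      ∃ k : G → ℝ, ∀ e ∈ E, v e = k (e.1 * π e.2) - k e.1) :
    ∃ K : ℝ, 0 ≤ K ∧ ∀ v : G × S → M, (∀ e ∉ E, v e = 0) → (∀ e ∈ T, v e = 0) → ∀ e,
      ‖v e‖ ≤ K * ‖fun f : F => linearCombination ℤ v (φ f)‖ := by
  classical
  let ex : (E → M) →ₗ[ℝ] (G × S → M) :=
    LinearMap.pi fun e => if h : e ∈ E then LinearMap.proj ⟨e, h⟩ else 0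
  have ex1 : ∀ v (e : E), ex v e = v e := fun v e => by simp [ex]
  let lc : X → (G × S → M) →ₗ[ℝ] M := fun f =>
    { toFun := fun v => linearCombination ℤ v (φ f)
      map_add' := fun a b => by simp [linearCombination_apply, Finsupp.sum, Finset.sum_add_distrib]
      map_smul' := fun a b => by
        simp [linearCombination_apply, Finsupp.sum, Finset.smul_sum, smul_comm a] }
  let Φ : (E → M) →ₗ[ℝ] (F → M) × (E → M) := (LinearMap.pi fun f : F => lc f ∘ₗ ex).prod
    (LinearMap.pi fun e : E => if e.1 ∈ T then LinearMap.proj e else 0)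
  obtain ⟨K, -, hK⟩ := Φ.exists_antilipschitzWith (LinearMap.ker_eq_bot'.mpr fun v hv => by
    funext e
    refine (Module.forall_dual_apply_eq_zero_iff ℝ _).mp fun l => ?_
    obtain ⟨k, hk⟩ := hH (fun e => l (ex v e)) fun f hf => by
      have : lc f (ex v) = 0 := congrFun (congrArg Prod.fst hv) ⟨f, hf⟩
      have h2 := apply_linearCombination ℤ (l.restrictScalars ℤ) (ex v) (φ f)
      rw [show linearCombination ℤ (ex v) (φ f) = 0 from this, map_zero] at h2
      exact h2.symm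
    have := tree_const π hT k (fun t ht => by
      have h1 : v ⟨t, hTE ht⟩ = 0 := by simpa [Φ, ht] using congrFun (congrArg Prod.snd hv) ⟨t, hTE ht⟩
      have h2 := hk t (hTE ht)
      rw [ex1 v ⟨t, hTE ht⟩, h1, map_zero] at h2
      linarith) e e.2
    rw [← ex1 v e, hk e e.2, this, sub_self])
  refine ⟨K, K.2, fun v h1 h2 e => ?_⟩
  by_cases he : e ∈ E
  swap
  · rw [h1 e he, norm_zero]; positivity
  have e1 : ex (fun e => v e) = v := funext fun e => by
    by_cases h : e ∈ E <;> simp [ex, h, h1]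
  have e2 : Φ (fun e => v e) = (fun f : F => linearCombination ℤ v (φ f), 0) := by
    refine Prod.ext (funext fun f => by simp [Φ, e1, lc]) (funext fun e => ?_)
    by_cases h : e.1 ∈ T <;> simp [Φ, h, h2]
  have := hK.le_mul_norm (map_zero Φ) fun e => v e
  rw [e2, Prod.norm_mk, norm_zero, max_eq_left (norm_nonneg _)] at this
  exact (norm_le_pi_norm (fun e : E => v e) ⟨e, he⟩).trans this

lemma bound_fin {X : Type*} [Finite X] {p : X → ℝ → Prop} (h : ∀ x, ∃ C, p x C)
    (hm : ∀ x C C', C ≤ C' → p x C → p x C') : ∃ C, 0 ≤ C ∧ ∀ x, p x C := by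
  choose C hC using h
  obtain ⟨B, hB⟩ := (Set.finite_range C).bddAbove
  exact ⟨max B 0, le_max_right _ _, fun x => hm x _ _ (le_max_of_le_left (hB ⟨x, rfl⟩)) (hC x)⟩

section

variable {A : Type*} [NormedRing A] [NormedAlgebra ℝ A] [StarRing A] [StarModule ℝ A]

lemma skew_comb {X : Type*} {v : X → A} (h : ∀ x, star (v x) = -v x) (k : X →₀ ℤ) :
    star (linearCombination ℤ v k) = -linearCombination ℤ v k := by
  induction k using Finsupp.induction_linear with
  | zero => simp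
  | add a b ha hb => simp [ha, hb, add_comm]
  | single x n => rw [linearCombination_single, star_zsmul, h, smul_neg]

lemma sk_skew (y : A) : star (sk y) = -sk y := by
  simp [sk, ← smul_neg]

lemma sk_one : sk (1 : A) = 0 := by simp [sk]

lemma Lam_skew (ω : G → FreeGroup S) (u : G × S → unitary A) {z : G × J → A}
    (h : ∀ p, star (z p) = -z p) (g : G) (k : G × J →₀ ℤ) :
    star (Lam π ω u z g k) = -Lam π ω u z g k :=
  skew_comb (fun p => by simp [h, mul_assoc]) k

lemma Lam_zero (ω : G → FreeGroup S) (u : G × S → unitary A) (g : G) (k : G × J →₀ ℤ) :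
    Lam π ω u 0 g k = 0 := by simp [Lam, linearCombination_apply]

variable [ContinuousStar A] [CompleteSpace A]

/-- Exponential of a skew element as a unitary. -/
noncomputable def uexp (X : A) (h : star X = -X) : unitary A :=
  ⟨NormedSpace.exp X, by
    let : NormedAlgebra ℚ A := NormedAlgebra.restrictScalars ℚ ℝ A
    exact NormedSpace.exp_mem_unitary_of_mem_skewAdjoint h⟩

lemma smul_skew {X : A} (h : star X = -X) (t : ℝ) : star (t • X) = -(t • X) := by simp [h]

lemma Sm.sk {D : Type*} [NormedRing D] [NormedAlgebra ℝ D] [StarRing D] {g : ℝ × unitary D → A}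
    (h : Sm g) : Sm fun p => sk (g p) := by
  simpa [P173B.sk, sub_eq_add_neg] using (sm_const (1 / 2 : ℝ)).smul (h.add h.star.neg)

lemma cont_of_sm {D B : Type*} [NormedRing D] [NormedAlgebra ℝ D] [StarRing D]
    [NormedAddCommGroup B] [NormedSpace ℝ B] {g : unitary D → B}
    (h : Sm fun p : ℝ × unitary D => g p.2) : Continuous g :=
  h.continuous.comp (Continuous.prodMk_right (0 : ℝ))

lemma sm_Lam {D : Type*} [NormedRing D] [NormedAlgebra ℝ D] [StarRing D] (ω : G → FreeGroup S)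
    {u : ℝ × unitary D → G × S → unitary A} {z : ℝ × unitary D → G × J → A}
    (su : ∀ e, Sm fun p => (u p e).1) (sz : ∀ f, Sm fun p => z p f) (g : G) (k : G × J →₀ ℤ) :
    Sm fun p => Lam π ω (u p) (z p) g k := by
  have sh : ∀ g w, Sm fun p => (hol π (u p) g w).1 := fun g w => sm_lift (u := u) su (path π g w)
  have := sm_comb
    (fun q : G × J => ((sh g (ω q.1)).mul (sz (g * q.1, q.2))).mul (sh g (ω q.1)).star) k
  unfold Lam
  exact this

end

open scoped Matrix Matrix.Norms.Operator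

variable {κ : Type*} [Fintype κ] [DecidableEq κ]

lemma norm_le_entry {M : Matrix κ κ ℂ} {ε : ℝ} (h0 : 0 ≤ ε) (h : ∀ a b, ‖M a b‖ ≤ ε) :
    ‖M‖ ≤ Fintype.card κ * ε := by
  lift ε to NNReal using h0
  rw [Matrix.linfty_opNorm_def]
  have : (Finset.univ.sup fun i => ∑ j, ‖M i j‖₊) ≤ Fintype.card κ * ε :=
    Finset.sup_le fun i _ => (Finset.sum_le_sum (g := fun _ => ε) fun j _ => h i j).trans (by simp)
  exact_mod_cast this

lemma norm_unit (u : unitary (Matrix κ κ ℂ)) : ‖(u : Matrix κ κ ℂ)‖ ≤ Fintype.card κ := by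
  simpa using norm_le_entry zero_le_one (entry_norm_bound_of_unitary u.2)

theorem core [Finite J] (hπ : Surjective (FreeGroup.lift π)) (r : R → FreeGroup S)
    (hr : (FreeGroup.lift π).ker = Subgroup.normalClosure (Set.range r))
    (hinj : LinearIndependent ℤ fun c : G × R => fox π c.1 (r c.2))
    (x : J → FreeGroup S) (hx : ∀ j, FreeGroup.lift π (x j) = 1) (b : FreeGroup S → G × J →₀ ℤ)
    (b1 : ∀ n n', FreeGroup.lift π n = 1 → FreeGroup.lift π n' = 1 → b (n * n') = b n + b n')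
    (b2 : ∀ w n, FreeGroup.lift π n = 1 → b (w * n * w⁻¹) = sh (FreeGroup.lift π w) (b n))
    (b3 : ∀ j, b (x j) = single (1, j) 1) :
    ∃ ε : ℝ, 0 < ε ∧ ∀ (E : Finset (G × S)) (F : Finset (G × J))
      (ρ : G × S → unitary (Matrix κ κ ℂ)),
      (∀ f ∈ F, path π f.1 (x f.2) ∈ Subgroup.closure (FreeGroup.of '' (E : Set (G × S)))) →
      (∀ v : G × S → ℝ, (∀ f ∈ F, linearCombination ℤ v (fox π f.1 (x f.2)) = 0) →
        ∃ k : G → ℝ, ∀ e ∈ E, v e = k (e.1 * π e.2) - k e.1) →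
      (∀ e ∈ E, ‖(ρ e : Matrix κ κ ℂ) - 1‖ ≤ ε) →
      (∀ f ∈ F, hol π ρ f.1 (x f.2) = 1) →
      ∃ k : G → unitary (Matrix κ κ ℂ), ∀ e ∈ E, ρ e = (k e.1)⁻¹ * k (e.1 * π e.2) := by
  classical
  obtain ⟨c, hc⟩ : ∃ c : ℝ, ∀ u : unitary (Matrix κ κ ℂ), ‖(u : Matrix κ κ ℂ)‖ ≤ c :=
    ⟨_, norm_unit⟩
  have c0 := c_nonneg hc
  obtain ⟨ω, hω, ω1⟩ : ∃ ω : G → FreeGroup S, (∀ g, FreeGroup.lift π (ω g) = g) ∧ ω 1 = 1 :=
    ⟨fun g => if g = 1 then 1 else surjInv hπ g, fun g => by
      by_cases h : g = 1 <;> simp [h, surjInv_eq], by simp⟩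
  obtain ⟨δ, δ0, P, hP⟩ := key π ω r b hc hr hω b1 b2 ω1 x hx b3
  obtain ⟨C1, C10, hC1⟩ := bound_fin (p := fun j C => ∀ (u u' : G × S → unitary (Matrix κ κ ℂ))
      (g : G) (η : ℝ), 0 ≤ η → (∀ e, ‖(u e : Matrix κ κ ℂ) - u' e‖ ≤ η) →
      ‖(hol π u g (x j)).1 - (hol π u' g (x j)).1‖ ≤ C * η)
    (fun j => by
      obtain ⟨C, -, h⟩ := lip hc (path π 1 (x j))
      exact ⟨C, fun u u' g η h0 h1 => by
        rw [hol_shift, hol_shift π u']; exact h _ _ η h0 fun e => h1 _⟩)
    fun j C C' h h1 u u' g η h0 h2 => (h1 u u' g η h0 h2).trans (by gcongr)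
  obtain ⟨ε, ε0, hε⟩ := small_path (A := Matrix κ κ ℂ) (ε := δ / (4 * C1 + 1)) (by positivity)
  refine ⟨ε, ε0, fun E F ρ hF hH hρ hfl => ?_⟩
  have : ∀ e, ∃ ξ : Matrix κ κ ℂ, star ξ = -ξ ∧ (e ∈ E → NormedSpace.exp ξ = ρ e) ∧
      (e ∉ E → ξ = 0) ∧
      ∀ t ∈ Set.Icc (0 : ℝ) 1, ‖NormedSpace.exp (t • ξ) - 1‖ ≤ δ / (4 * C1 + 1) := fun e => by
    by_cases he : e ∈ E
    · obtain ⟨ξ, h1, h2, h3⟩ := hε _ (hρ e he)
      exact ⟨ξ, h1, fun _ => h2, fun h => absurd he h, h3⟩
    · exact ⟨0, by simp, fun h => absurd h he, fun _ => rfl, fun t _ => by simp; positivity⟩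
  choose ξ ξ1 ξ2 ξ3 ξ4 using this
  obtain ⟨T, hTE, hT, hT'⟩ := exists_tree π (E : Set (G × S))
  choose Q hQ using fun e : G × S => flat_key π ω r b hc hr
    (n := ω e.1 * FreeGroup.of e.2 * (ω (e.1 * π e.2))⁻¹) (by simp [hω])
  let I : Finset (G × R) :=
    (F.biUnion fun f => P.image fun c => (f.1 * c.1, c.2)) ∪ E.biUnion Q
  have gauge : ∀ u : G × S → unitary (Matrix κ κ ℂ), (∀ c ∈ I, Eqn π ω r b u 0 c.1 c.2) →
      ∃ k : G → unitary (Matrix κ κ ℂ), ∀ e ∈ E, u e = (k e.1)⁻¹ * k (e.1 * π e.2) := fun u hu => by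
    refine ⟨fun g => hol π u 1 (ω g), fun e he => ?_⟩
    have := hQ e u fun c hc => hu c
      (Finset.mem_union_right _ (Finset.mem_biUnion.mpr ⟨e, he, hc⟩))
    simp only [hol_mul, hol_inv, hω, one_mul, hol_of, map_mul, FreeGroup.lift_apply_of,
      mul_inv_cancel, mul_inv_eq_one] at this
    simp only [← this, inv_mul_cancel_left]
  obtain ⟨d, hd, Rm, R1, R2⟩ := exists_rinv (fun c : I => fox π c.1.1 (r c.1.2)) T fun n hn => by
    refine linearIndependent_iff.mp (hinj.comp _ Subtype.val_injective) n (hT' _ hn ?_)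
    rw [apply_linearCombination]
    have : (bd1 π ∘ (fun c : G × R => fox π c.1 (r c.2)) ∘ (Subtype.val : I → _)) = 0 :=
      funext fun c => by
      have : FreeGroup.lift π (r c.1.2) = 1 :=
        MonoidHom.mem_ker.mp (hr ▸ Subgroup.subset_normalClosure ⟨_, rfl⟩)
      simp [bd1_fox, this]
    rw [this, linearCombination_zero]; rfl
  have : ∀ e, ∃ w : FreeGroup I, ab w = Rm e ∧ (e ∈ T → w = 1) := fun e => by
    by_cases he : e ∈ T
    · exact ⟨1, by simp [R1 e he], fun _ => rfl⟩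
    · exact (ab_surjective (Rm e)).imp fun w h => ⟨h, fun h' => absurd h' he⟩
  choose W W1 W2 using this
  obtain ⟨K, K0, hK⟩ := exists_K (M := Matrix κ κ ℂ) π E F (fun f => fox π f.1 (x f.2)) hT hTE hH
  obtain ⟨C2, C20, hC2⟩ := bound_fin (p := fun (f : F) C =>
      ∀ (u : G × S → unitary (Matrix κ κ ℂ)) (η : ℝ), 0 ≤ η →
      (∀ e, ‖(u e : Matrix κ κ ℂ) - 1‖ ≤ η) → ‖(hol π u f.1.1 (x f.1.2)).1 - 1 -
        linearCombination ℤ (fun e => sk (u e).1) (fox π f.1.1 (x f.1.2))‖ ≤ C * η ^ 2)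
    (fun f => (lin hc _).imp fun C h => h.2)
    fun j C C' h h1 u η h0 h2 => (h1 u η h0 h2).trans (by gcongr)
  obtain ⟨η0, η00, η01, η02⟩ : ∃ η0 : ℝ, 0 < η0 ∧ c * η0 ≤ 1 ∧ 4 * K * C2 * η0 ≤ 1 := by
    have h : 0 < c + 4 * K * C2 + 1 := by positivity
    refine ⟨1 / (c + 4 * K * C2 + 1), by positivity, ?_, ?_⟩ <;>
      rw [mul_one_div, div_le_one h] <;> nlinarith [mul_nonneg K0 C20]
  obtain ⟨μ0, μ00, μ01, μ02⟩ : ∃ μ0 : ℝ, 0 < μ0 ∧ 8 * C1 * c * K ≤ μ0 ∧ 2 * K * δ < η0 * μ0 := by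
    refine ⟨8 * C1 * c * K + (2 * K * δ + 1) / η0, by positivity,
      le_add_of_nonneg_right (by positivity), ?_⟩
    rw [mul_add, mul_div_cancel₀ _ η00.ne']
    nlinarith [show 0 ≤ η0 * (8 * C1 * c * K) by positivity]
  let U := unitary (I → Matrix κ κ ℂ)
  let y : U → G × S → unitary (Matrix κ κ ℂ) := fun τ e => FreeGroup.lift (cpt τ) (W e)
  let θ : U → G × S → unitary (Matrix κ κ ℂ) := fun τ e => if e ∈ E then y τ e else 1
  let D : U → G × J → Matrix κ κ ℂ := fun τ f =>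
    linearCombination ℤ (fun e => sk (θ τ e).1) (fox π f.1 (x f.2))
  let μ : ℝ → ℝ := fun s => μ0 * Real.smoothTransition (2 * s)
  let t : ℝ → ℝ := fun s => Real.smoothTransition (2 * s - 1)
  let ex : ℝ → G × S → unitary (Matrix κ κ ℂ) := fun s e => uexp (t s • ξ e) (smul_skew (ξ1 e) _)
  let u : ℝ × U → G × S → unitary (Matrix κ κ ℂ) := fun p e => ex p.1 e * y p.2 e
  let z : ℝ × U → G × J → Matrix κ κ ℂ := fun p f => if f ∈ F then -μ p.1 • D p.2 f else 0
  have zs : ∀ p f, star (z p f) = -z p f := fun p f => by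
    by_cases h : f ∈ F
    · simp only [z, if_pos h]
      exact smul_skew (skew_comb (fun _ => sk_skew _) _) _
    · simp [z, h]
  let H : ℝ × U → I → unitary (Matrix κ κ ℂ) := fun p c => hol π (u p) c.1.1 (r c.1.2) *
    (uexp _ (Lam_skew π ω (u p) (zs p) c.1.1 (b (r c.1.2))))⁻¹
  have hH1 : ∀ p, (∀ c, H p c = 1) → ∀ c ∈ I, Eqn π ω r b (u p) (z p) c.1 c.2 := fun p h c hc =>
    congrArg Subtype.val (mul_inv_eq_one.mp (h ⟨c, hc⟩))
  have sy : ∀ e, Sm fun p : ℝ × U => (y p.2 e).1 := fun e =>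
    sm_lift (u := fun p : ℝ × U => cpt p.2) sm_cpt (W e)
  have sθ : ∀ e, Sm fun p : ℝ × U => (θ p.2 e).1 := fun e => by
    by_cases h : e ∈ E
    · simpa only [θ, if_pos h] using sy e
    · simpa only [θ, if_neg h] using sm_const _
  have sD : ∀ f, Sm fun p : ℝ × U => D p.2 f := fun f => 
    sm_comb (fun e => (sθ e).sk) (fox π f.1 (x f.2))
  have su : ∀ e, Sm fun p => (u p e).1 := fun e =>
    ((sm_time (φ := t) (Real.smoothTransition.contDiff.comp
      ((contDiff_const.mul contDiff_id).sub contDiff_const))).smul (sm_const (ξ e))).exp.mul (sy e)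
  have sz : ∀ f, Sm fun p => z p f := fun f => by
    by_cases h : f ∈ F
    · simpa only [z, if_pos h] using (sm_time (φ := μ) (contDiff_const.mul
        (Real.smoothTransition.contDiff.comp (contDiff_const.mul contDiff_id)))).neg.smul (sD f)
    · simpa only [z, if_neg h] using sm_const _
  have sh : ∀ g w, Sm fun p => (hol π (u p) g w).1 := fun g w =>
    sm_lift (u := u) su (path π g w)
  have sL : ∀ g k, Sm fun p => Lam π ω (u p) (z p) g k := fun g k => sm_Lam π ω su sz g k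
  have sH : ∀ c, Sm fun p => (H p c).1 := fun c => by
    simpa only [H, Submonoid.coe_mul, ← Unitary.star_eq_inv, Unitary.coe_star, uexp] using
      (sh c.1.1 (r c.1.2)).mul (sL c.1.1 (b (r c.1.2))).exp.star
  let η : U → ℝ := fun τ => ‖fun e : E => (θ τ e).1 - 1‖
  let N : U → ℝ := fun τ => ‖fun f : F => D τ f‖
  have cη : Continuous η := by
    have h1 : ∀ e, Continuous fun τ => (θ τ e).1 := fun e => cont_of_sm (sθ e)
    have h2 : Continuous fun τ (e : E) => (θ τ e).1 - 1 :=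
      continuous_pi fun e => (h1 e).sub continuous_const
    exact h2.norm
  have cN : Continuous N := by
    have h2 : Continuous fun τ (f : F) => D τ f := continuous_pi fun f => cont_of_sm (sD f)
    exact h2.norm
  have η1 : ∀ τ e, ‖(θ τ e).1 - 1‖ ≤ η τ := fun τ e => by
    by_cases h : e ∈ E
    · exact norm_le_pi_norm (fun e : E => (θ τ e).1 - 1) ⟨e, h⟩
    · simp [θ, h, η]
  have N1 : ∀ τ, ∀ f ∈ F, ‖D τ f‖ ≤ N τ := fun τ f hf =>
    norm_le_pi_norm (fun f : F => D τ f) ⟨f, hf⟩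
  have N2 : ∀ τ (a m : ℝ), 0 < m → 0 ≤ a → (∀ f ∈ F, m * ‖D τ f‖ ≤ a) → m * N τ ≤ a :=
    fun τ a m hm ha h => by
      rw [← le_div_iff₀' hm]
      exact (pi_norm_le_iff_of_nonneg (by positivity)).mpr fun f => (le_div_iff₀' hm).mpr (h _ f.2)
  have ηN : ∀ τ, η τ ≤ η0 → η τ ≤ 2 * K * N τ := fun τ h => by
    refine (pi_norm_le_iff_of_nonneg (by positivity)).mpr fun e => ?_
    refine (norm_sub_le_sk hc _ ((mul_le_mul_of_nonneg_left ((η1 τ e).trans h) c0).trans η01)).trans ?_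
    rw [mul_assoc]
    refine mul_le_mul_of_nonneg_left (hK (fun e => sk (θ τ e).1) (fun e he => ?_) (fun e he => ?_) e)
      zero_le_two
    · simp [θ, he, sk_one]
    · simp [θ, y, W2 e he, sk_one]
  have μ1 : ∀ s, 0 ≤ μ s ∧ μ s ≤ μ0 := fun s =>
    ⟨mul_nonneg μ00.le (Real.smoothTransition.nonneg _),
      mul_le_of_le_one_right μ00.le (Real.smoothTransition.le_one _)⟩
  have KE : ∀ s τ, μ0 * N τ ≤ δ → (∀ c, H (s, τ) c = 1) → ∀ f ∈ F,
      ‖(hol π (u (s, τ)) f.1 (x f.2)).1 - 1 + μ s • D τ f‖ ≤ μ s * N τ / 2 := by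
    intro s τ h1 h2 f hf
    have := hP (u (s, τ)) (z (s, τ)) f.1 (μ s * N τ) (mul_nonneg (μ1 s).1 (norm_nonneg _))
      ((mul_le_mul_of_nonneg_right (μ1 s).2 (norm_nonneg _)).trans h1) (fun p => by
        by_cases h : p ∈ F
        · simp only [z, if_pos h, norm_smul, norm_neg, Real.norm_of_nonneg (μ1 s).1]
          exact mul_le_mul_of_nonneg_left (N1 τ p h) (μ1 s).1
        · simp only [z, if_neg h, norm_zero]
          exact mul_nonneg (μ1 s).1 (norm_nonneg _))
      (fun c hc => hH1 _ h2 (f.1 * c.1, c.2) (Finset.mem_union_left _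
        (Finset.mem_biUnion.mpr ⟨f, hf, Finset.mem_image_of_mem _ hc⟩))) f.2
    simpa only [z, Prod.mk.eta, if_pos hf, neg_smul, sub_neg_eq_add] using this
  have S2 : ∀ s τ (a : ℝ), 1 / 2 ≤ s → η τ ≤ η0 → μ0 * N τ ≤ δ → (∀ c, H (s, τ) c = 1) → 0 ≤ a →
      (∀ f ∈ F, ‖(hol π (ex s) f.1 (x f.2)).1 - 1‖ ≤ a) → μ0 * N τ ≤ 4 * a := by
    intro s τ a hs h0 h1 h2 a0 ha
    have e : μ s = μ0 := by simp only [μ]; rw [Real.smoothTransition.one_of_one_le (by linarith), mul_one]
    have n0 : 0 ≤ N τ := norm_nonneg _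
    have h5 : C1 * (c * η τ) ≤ μ0 * N τ / 4 := by
      have := ηN τ h0
      calc _ ≤ C1 * (c * (2 * K * N τ)) := by gcongr
        _ = 8 * C1 * c * K * N τ / 4 := by ring
        _ ≤ _ := by gcongr
    have := N2 τ (μ0 * N τ / 2 + μ0 * N τ / 4 + a) μ0 μ00 (by positivity) fun f hf => by
      have h3 := KE s τ h1 h2 f hf
      have h4 := hC1 f.2 (fun e => ex s e * θ τ e) (ex s) f.1 (c * η τ)
        (mul_nonneg c0 (norm_nonneg _)) fun e => by
          rw [Submonoid.coe_mul, ← mul_sub_one]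
          exact (norm_mul_le _ _).trans (mul_le_mul (hc _) (η1 τ e) (norm_nonneg _) c0)
      have e2 : hol π (u (s, τ)) f.1 (x f.2) = hol π (fun e => ex s e * θ τ e) f.1 (x f.2) :=
        lift_congr (fun e he => by simp only [u, θ, if_pos (Finset.mem_coe.mp he)]) (hF f hf)
      rw [e, e2] at h3
      have h6 := ha f hf
      rw [← Real.norm_of_nonneg μ00.le, ← norm_smul, Real.norm_of_nonneg μ00.le]
      generalize (hol π (fun e => ex s e * θ τ e) f.1 (x f.2)).1 = a1 at *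
      generalize (hol π (ex s) f.1 (x f.2)).1 = a2 at *
      rw [show μ0 • D τ f = (a1 - 1 + μ0 • D τ f) - (a1 - a2) - (a2 - 1) by abel]
      exact (norm_sub_le_of_le (norm_sub_le_of_le h3 (h4.trans h5)) h6)
    linarith
  have ex0 : ∀ s ≤ 1 / 2, ∀ τ, u (s, τ) = y τ := fun s hs τ => funext fun e => Subtype.ext (by
    have : t s = 0 := Real.smoothTransition.zero_of_nonpos (by linarith)
    simp [u, ex, uexp, this])
  have z0 : ∀ τ, z (0, τ) = 0 := fun τ => funext fun f => by simp [z, μ]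
  obtain ⟨τ, ⟨h1, h2⟩, h3⟩ := ess_loc hd (fun c : I => FreeGroup.lift W (path π c.1.1 (r c.1.2)))
    (fun c => by rw [ab_lift, funext W1]; exact R2 c) H sH
    (fun τ c => by
      have e : (FreeGroup.lift (cpt τ)).comp (FreeGroup.lift W) = FreeGroup.lift (y τ) :=
        FreeGroup.ext_hom _ _ fun e => by simp [y]
      refine Subtype.ext ?_
      simp only [H, ex0 0 (by norm_num), ← Unitary.star_eq_inv, Submonoid.coe_mul, uexp, z0,
        Lam_zero, NormedSpace.exp_zero, Unitary.coe_star, star_one, mul_one, hol, ← e]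
      rfl)
    (Ω := {τ | η τ < η0 ∧ μ0 * N τ < δ}) (Ω' := {τ | η τ ≤ η0 ∧ μ0 * N τ ≤ δ})
    ((isOpen_lt cη continuous_const).inter (isOpen_lt (continuous_const.mul cN) continuous_const))
    ((isClosed_le cη continuous_const).inter
      (isClosed_le (continuous_const.mul cN) continuous_const))
    (fun τ h => ⟨h.1.le, h.2.le⟩)
    (fun τ h => by
      obtain ⟨k, hk⟩ := gauge (y τ) (by simpa only [ex0 0 (by norm_num), z0] using hH1 _ h)
      have h4 := tree_const π hT k fun e he => by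
        have := hk e (hTE he)
        simp only [y, W2 e he, map_one] at this
        exact inv_mul_eq_one.mp this.symm
      have h5 : θ τ = fun _ => 1 := funext fun e => by
        by_cases he : e ∈ E
        · simp only [θ, if_pos he, hk e he, ← h4 e he, inv_mul_cancel]
        · simp only [θ, if_neg he]
      constructor
      · simpa [η, h5, ← Pi.zero_def] using η00
      · simpa [N, D, h5, sk_one, ← Pi.zero_def] using δ0)
    (fun s _ τ ⟨h1, h2⟩ h3 => by
      have n0 : 0 ≤ N τ := norm_nonneg _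
      have h4 := ηN τ h1
      refine ⟨lt_of_mul_lt_mul_right (a := μ0) ?_ μ00.le, ?_⟩
      · calc η τ * μ0 ≤ 2 * K * N τ * μ0 := by gcongr
          _ = 2 * K * (μ0 * N τ) := by ring
          _ ≤ 2 * K * δ := by gcongr
          _ < _ := μ02
      rcases le_total s (1 / 2) with hs | hs
      · have h5 : C2 * η τ ^ 2 ≤ N τ / 2 := by
          have e0 : 0 ≤ η τ := norm_nonneg _
          calc _ = C2 * (η τ * η τ) := by ring
            _ ≤ C2 * (η0 * (2 * K * N τ)) := by gcongr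
            _ = 4 * K * C2 * η0 * (N τ / 2) := by ring
            _ ≤ 1 * (N τ / 2) := by gcongr
            _ = _ := one_mul _
        have m0 := (μ1 s).1
        have := N2 τ (μ s * N τ / 2 + N τ / 2) (μ s + 1) (by positivity) (by positivity)
          fun f hf => by
            have h6 := KE s τ h2 h3 f hf
            have h7 := (hC2 ⟨f, hf⟩ (θ τ) (η τ) (norm_nonneg _) (η1 τ)).trans h5
            have e2 : hol π (y τ) f.1 (x f.2) = hol π (θ τ) f.1 (x f.2) :=
              lift_congr (fun e he => by simp only [θ, if_pos (Finset.mem_coe.mp he)]) (hF f hf)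
            rw [ex0 s hs, e2] at h6
            have m1 : 0 ≤ μ s + 1 := by positivity
            rw [← Real.norm_of_nonneg m1, ← norm_smul]
            generalize (hol π (θ τ) f.1 (x f.2)).1 = a1 at *
            rw [show (μ s + 1) • D τ f = (a1 - 1 + μ s • D τ f) - (a1 - 1 - D τ f) by module]
            exact norm_sub_le_of_le h6 h7
        have : N τ = 0 := by nlinarith
        simpa [this] using δ0
      · refine (S2 s τ (C1 * (δ / (4 * C1 + 1))) hs h1 h2 h3 (by positivity) fun f hf => ?_).trans_lt ?_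
        · have e : FreeGroup.lift (fun _ : G × S => (1 : unitary (Matrix κ κ ℂ))) = 1 :=
            FreeGroup.ext_hom _ _ (by simp)
          simpa [hol, e] using hC1 f.2 (ex s) (fun _ => 1) f.1 _ (by positivity) fun e =>
            ξ4 e _ ⟨Real.smoothTransition.nonneg _, Real.smoothTransition.le_one _⟩
        · rw [← mul_assoc, ← mul_div_assoc, div_lt_iff₀ (by positivity)]
          nlinarith)
  have e1 : ∀ e ∈ E, ex 1 e = ρ e := fun e he => Subtype.ext (by
    have : t 1 = 1 := Real.smoothTransition.one_of_one_le (by norm_num)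
    simp only [ex, uexp, this, one_smul]
    exact ξ2 e he)
  have h4 := S2 1 τ 0 (by norm_num) h1.le h2.le h3 le_rfl fun f hf => by
    have : hol π (ex 1) f.1 (x f.2) = 1 := (lift_congr e1 (hF f hf)).trans (hfl f hf)
    simp [this]
  have h5 : N τ = 0 := le_antisymm (by nlinarith) (norm_nonneg _)
  have h6 : z (1, τ) = 0 := funext fun f => by
    by_cases h : f ∈ F
    · have : D τ f = 0 := norm_le_zero_iff.mp (h5 ▸ N1 τ f h)
      simp [z, this]
    · simp [z, h]
  obtain ⟨k, hk⟩ := gauge (u (1, τ)) (h6 ▸ hH1 _ h3)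
  refine ⟨k, fun e he => ?_⟩
  have h7 : (θ τ e).1 - 1 = 0 := norm_le_zero_iff.mp ((η1 τ e).trans (by simpa [h5] using ηN τ h1.le))
  have h8 : y τ e = 1 := Subtype.ext (by simpa [θ, he, sub_eq_zero] using h7)
  rw [← hk e he, ← e1 e he]
  simp only [u, h8, mul_one]

end Vale.Agent.P173B
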