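import Vale.Agent.P174.TLc
import Vale.Agent.P173B.Fox
import Mathlib.Geometry.Manifold.PartitionOfUnity

/-! Word maps with exponent matrix `d • 1` are essential, and a localized version. -/

namespace Vale.Agent.P173B

open Vale.Agent.P174 Function

set_option linter.unusedSectionVars false

section Sm

variable {D : Type*} [NormedRing D] [NormedAlgebra ℝ D] [StarRing D]
  {B B' : Type*} [NormedAddCommGroup B] [NormedSpace ℝ B] [NormedAddCommGroup B'] [NormedSpace ℝ B']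

/-- Functions on `ℝ × unitary D` with a `C²` extension. -/
def Sm (g : ℝ × unitary D → B) : Prop :=
  ∃ f : ℝ × D → B, ContDiff ℝ 2 f ∧ ∀ s (τ : unitary D), f (s, τ) = g (s, τ)

lemma Sm.map {g : ℝ × unitary D → B} (h : Sm g) {φ : B → B'} (hφ : ContDiff ℝ 2 φ) :
    Sm fun p => φ (g p) := by
  obtain ⟨f, h1, h2⟩ := h
  exact ⟨fun p => φ (f p), hφ.comp h1, fun s τ => by simp only [h2]⟩

lemma Sm.prod {g : ℝ × unitary D → B} {g' : ℝ × unitary D → B'} (h : Sm g) (h' : Sm g') :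
    Sm fun p => (g p, g' p) := by
  obtain ⟨f, h1, h2⟩ := h
  obtain ⟨f', h1', h2'⟩ := h'
  exact ⟨fun p => (f p, f' p), h1.prodMk h1', fun s τ => by simp only [h2, h2']⟩

lemma sm_time {φ : ℝ → B} (h : ContDiff ℝ 2 φ) : Sm fun p : ℝ × unitary D => φ p.1 :=
  ⟨fun p => φ p.1, h.comp contDiff_fst, fun _ _ => rfl⟩

lemma sm_const (b : B) : Sm fun _ : ℝ × unitary D => b := sm_time contDiff_const

lemma sm_coe : Sm fun p : ℝ × unitary D => (p.2 : D) := ⟨fun p => p.2, contDiff_snd, fun _ _ => rfl⟩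

lemma Sm.continuous {g : ℝ × unitary D → B} (h : Sm g) : Continuous g := by
  obtain ⟨f, h1, h2⟩ := h
  have : g = fun p => f (p.1, p.2) := funext fun p => (h2 p.1 p.2).symm
  rw [this]
  exact h1.continuous.comp (continuous_fst.prodMk (continuous_subtype_val.comp continuous_snd))

lemma Sm.add {g g' : ℝ × unitary D → B} (h : Sm g) (h' : Sm g') : Sm fun p => g p + g' p :=
  (h.prod h').map (contDiff_fst.add contDiff_snd)

lemma Sm.neg {g : ℝ × unitary D → B} (h : Sm g) : Sm fun p => -g p := h.map contDiff_neg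

lemma Sm.smul {c : ℝ × unitary D → ℝ} {g : ℝ × unitary D → B} (h : Sm c) (h' : Sm g) :
    Sm fun p => c p • g p := (h.prod h').map (contDiff_fst.smul contDiff_snd)

lemma sm_comb {X : Type*} {g : X → ℝ × unitary D → B} (h : ∀ x, Sm (g x)) (c : X →₀ ℤ) :
    Sm fun p => Finsupp.linearCombination ℤ (fun x => g x p) c := by
  induction c using Finsupp.induction_linear with
  | zero => simpa using sm_const 0
  | add a b ha hb => simpa using ha.add hb
  | single x n =>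
    simpa [← Int.cast_smul_eq_zsmul ℝ] using (sm_const (n : ℝ)).smul (h x)

lemma Sm.reparam {g : ℝ × unitary D → B} (h : Sm g) {φ : D → ℝ} (hφ : ContDiff ℝ 2 φ) :
    Sm fun p : ℝ × unitary D => g (p.1 * φ p.2, p.2) := by
  obtain ⟨f, h1, h2⟩ := h
  exact ⟨fun p => f (p.1 * φ p.2, p.2),
    h1.comp ((contDiff_fst.mul (hφ.comp contDiff_snd)).prodMk contDiff_snd), fun s τ => h2 _ _⟩

variable {A : Type*} [NormedRing A] [NormedAlgebra ℝ A] [StarRing A] [ContinuousStar A]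
  [StarModule ℝ A]

lemma Sm.mul {g g' : ℝ × unitary D → A} (h : Sm g) (h' : Sm g') : Sm fun p => g p * g' p :=
  (h.prod h').map (contDiff_fst.mul contDiff_snd)

lemma Sm.star {g : ℝ × unitary D → A} (h : Sm g) : Sm fun p => star (g p) := h.map contDiff_star

lemma Sm.exp [CompleteSpace A] {g : ℝ × unitary D → A} (h : Sm g) :
    Sm fun p => NormedSpace.exp (g p) := by
  let : NormedAlgebra ℚ A := NormedAlgebra.restrictScalars ℚ ℝ A
  exact h.map (contDiff_iff_contDiffAt.mpr fun x => (NormedSpace.exp_analytic x).contDiffAt)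

lemma sm_lift {X : Type*} {u : ℝ × unitary D → X → unitary A} (h : ∀ x, Sm fun p => (u p x : A))
    (w : FreeGroup X) : Sm fun p => (FreeGroup.lift (u p) w : unitary A).1 := by
  induction w using FreeGroup.induction_on with
  | C1 => simpa using sm_const (1 : A)
  | of x => simpa using h x
  | inv_of x ih => simpa [← Unitary.star_eq_inv] using (h x).star
  | mul a b ha hb => simpa using ha.mul hb

end Sm

lemma lift_eq_of_ab {X C : Type*} [CommGroup C] (f : X → C) {v w : FreeGroup X} (h : ab v = ab w) :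
    FreeGroup.lift f v = FreeGroup.lift f w := by
  have : ∀ w, Additive.ofMul (FreeGroup.lift f w) =
      Finsupp.linearCombination ℤ (fun x => Additive.ofMul (f x)) (ab w) := by
    intro w
    induction w using FreeGroup.induction_on with
    | C1 => simp
    | of x => simp
    | inv_of x ih => simp
    | mul a b ha hb => simp [ha, hb]
  exact Additive.ofMul.injective (by rw [this, this, h])

lemma exists_smooth_sep {D : Type*} [NormedAddCommGroup D] [NormedSpace ℝ D] [FiniteDimensional ℝ D]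
    {s t : Set D} (hs : IsClosed s) (ht : IsClosed t) (hd : Disjoint s t) :
    ∃ φ : D → ℝ, ContDiff ℝ 2 φ ∧ (∀ x ∈ s, φ x = 0) ∧ (∀ x ∈ t, φ x = 1) ∧
      ∀ x, φ x ∈ Set.Icc (0 : ℝ) 1 := by
  have : ProperSpace D := FiniteDimensional.proper ℝ D
  obtain ⟨φ, p0, p1, p2⟩ := exists_contMDiffMap_zero_one_of_isClosed (n := 2)
    (modelWithCornersSelf ℝ D) hs ht hd
  exact ⟨φ, φ.contMDiff.contDiff, p0, p1, p2⟩

/-- A component of a unitary tuple. -/
def cpt {I A : Type*} [Monoid A] [StarMul A] (τ : unitary (I → A)) (i : I) : unitary A :=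
  ⟨τ.1 i, congrFun τ.2.1 i, congrFun τ.2.2 i⟩

open scoped Matrix Matrix.Norms.Operator

variable {I κ : Type*} [Fintype I] [DecidableEq I] [Fintype κ] [DecidableEq κ]

lemma sm_cpt (i : I) : Sm fun p : ℝ × unitary (I → Matrix κ κ ℂ) => (cpt p.2 i).1 :=
  sm_coe.map (φ := fun x : I → Matrix κ κ ℂ => x i) (contDiff_apply ℝ _ i)

lemma htp_word {E : Type*} [Fintype E] [DecidableEq E] {ι0 ι1 : Matrix E κ ℂ}
    (h0 : ι0ᴴ * ι0 = 1) (h1 : ι1ᴴ * ι1 = 1) (h01 : ι0ᴴ * ι1 = 0) {v w : FreeGroup I}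
    (h : ab v = ab w) {Φ Θ : (I → Matrix κ κ ℂ) → Matrix κ κ ℂ} (g : Good Φ) (g' : Good Θ)
    (e : ∀ τ : unitary _, Φ τ = (FreeGroup.lift (cpt τ) v).1)
    (e' : ∀ τ : unitary _, Θ τ = (FreeGroup.lift (cpt τ) w).1) :
    Htp (fun τ => hat ι0 (Φ τ)) fun τ => hat ι0 (Θ τ) := by
  let D := I → Matrix κ κ ℂ
  let : CommMonoid (hcon D h0).Quotient :=
    { (inferInstance : Monoid (hcon D h0).Quotient) with mul_comm := hcon_comm h0 h1 h01 }
  have ga : ∀ i, Good fun τ : D => τ i := fun i =>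
    ⟨contDiff_apply _ _ i, fun τ hτ => (cpt ⟨τ, hτ⟩ i).2⟩
  have gb : ∀ i, Good fun τ : D => star (τ i) := fun i =>
    ⟨contDiff_star.comp (ga i).1, fun τ hτ => Unitary.star_mem ((ga i).2 τ hτ)⟩
  have eq : ∀ a b : goodM D (Matrix κ κ ℂ), (∀ τ ∈ unitary D, a.1 τ = b.1 τ) →
      (hcon D h0).mk' a = (hcon D h0).mk' b := fun a b hab => (hcon_eq h0 _ _).mpr
    (htp_of_eq (good_hat h0 a.2) (good_hat h0 b.2) fun τ hτ => congrArg (hat ι0) (hab τ hτ))
  let X : I → ((hcon D h0).Quotient)ˣ := fun i =>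
    Units.mkOfMulEqOne ((hcon D h0).mk' ⟨_, ga i⟩) ((hcon D h0).mk' ⟨_, gb i⟩) (by
      rw [← map_mul, ← map_one (hcon D h0).mk']
      exact eq _ _ fun τ hτ => ((ga i).2 τ hτ).2)
  have key : ∀ w : FreeGroup I, ∃ a : goodM D (Matrix κ κ ℂ),
      (∀ τ : unitary D, a.1 τ = (FreeGroup.lift (cpt τ) w).1) ∧
      (hcon D h0).mk' a = (FreeGroup.lift X w).1 := by
    intro w
    induction w using FreeGroup.induction_on with
    | C1 => exact ⟨1, fun τ => by simp, by simp⟩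
    | of i => exact ⟨⟨_, ga i⟩, fun τ => by simp [cpt], by simp [X]⟩
    | inv_of i _ =>
      exact ⟨⟨_, gb i⟩, fun τ => by simp [cpt, ← Unitary.star_eq_inv], by
        rw [map_inv, FreeGroup.lift_apply_of]; rfl⟩
    | mul a b ha hb =>
      obtain ⟨a', a1, a2⟩ := ha
      obtain ⟨b', b1, b2⟩ := hb
      exact ⟨a' * b', fun τ => by simp [a1, b1], by rw [map_mul, a2, b2, map_mul, Units.val_mul]⟩
  obtain ⟨a, a1, a2⟩ := key v
  obtain ⟨b, b1, b2⟩ := key w
  refine (hcon_eq h0 ⟨Φ, g⟩ ⟨Θ, g'⟩).mp ?_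
  rw [eq ⟨Φ, g⟩ a fun τ hτ => (e ⟨τ, hτ⟩).trans (a1 ⟨τ, hτ⟩).symm,
    eq ⟨Θ, g'⟩ b fun τ hτ => (e' ⟨τ, hτ⟩).trans (b1 ⟨τ, hτ⟩).symm, a2, b2, lift_eq_of_ab X h]

lemma eq_one_of_fix {y : Matrix κ κ ℂ} {q : Matrix (κ ⊕ κ) (κ ⊕ κ) ℂ} (q2 : q * qᴴ = 1)
    (h : Matrix.fromBlocks y 0 0 (-1) * (qᴴ * Matrix.fromBlocks 1 0 0 0 * q) =
      qᴴ * Matrix.fromBlocks 1 0 0 0 * q) : y = 1 := by
  set f := qᴴ * Matrix.fromBlocks (1 : Matrix κ κ ℂ) 0 0 (0 : Matrix κ κ ℂ) * q with hf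
  have h6 : f * f = f := by
    simp only [hf, Matrix.mul_assoc]
    rw [← Matrix.mul_assoc q qᴴ, q2, Matrix.one_mul, ← Matrix.mul_assoc _ _ q]
    simp [Matrix.fromBlocks_multiply]
  have h7 : fᴴ = f := by simp [hf, Matrix.mul_assoc, Matrix.fromBlocks_conjTranspose]
  have h8 : f.trace = Fintype.card κ := by
    rw [hf, Matrix.trace_mul_comm, ← Matrix.mul_assoc, q2]
    simp [Matrix.trace]
  clear_value f
  rw [← Matrix.fromBlocks_toBlocks f] at h h6 h7 h8
  generalize f.toBlocks₁₁ = a, f.toBlocks₁₂ = b, f.toBlocks₂₁ = c, f.toBlocks₂₂ = e at *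
  rw [Matrix.fromBlocks_multiply, Matrix.fromBlocks_inj] at h h6
  rw [Matrix.fromBlocks_conjTranspose, Matrix.fromBlocks_inj] at h7
  have c0 : c = 0 := Setup.two_eq_zero (by simpa using h.2.2.1.symm)
  have e0 : e = 0 := Setup.two_eq_zero (by simpa using h.2.2.2.symm)
  have a1 : a * a = a := by simpa [c0] using h6.1
  have a2 : a.trace = Fintype.card κ := by simpa [Matrix.trace, e0] using h8
  have a3 : 1 - a = 0 := by
    open scoped ComplexOrder in
    refine Matrix.trace_conjTranspose_mul_self_eq_zero_iff.mp ?_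
    rw [Matrix.conjTranspose_sub, h7.1, Matrix.conjTranspose_one, sub_mul, mul_sub, mul_sub, a1]
    simp [a2]
  simpa [← sub_eq_zero.mp a3] using h.1

theorem ess {d : ℕ} (hd : 0 < d) (w : I → FreeGroup I)
    (hw : ∀ i, ab (w i) = Finsupp.single i (d : ℤ))
    (H : ℝ × unitary (I → Matrix κ κ ℂ) → I → unitary (Matrix κ κ ℂ))
    (hH : ∀ i, Sm fun p => (H p i).1) (H0 : ∀ τ i, H (0, τ) i = FreeGroup.lift (cpt τ) (w i)) :
    ∃ τ, ∀ i, H (1, τ) i = 1 := by
  let ι0 : Matrix (κ ⊕ κ) κ ℂ := Matrix.fromRows 1 0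
  let ι1 : Matrix (κ ⊕ κ) κ ℂ := Matrix.fromRows 0 1
  have h0 : ι0ᴴ * ι0 = 1 := by
    simp [ι0, Matrix.conjTranspose_fromRows_eq_fromCols_conjTranspose, Matrix.fromCols_mul_fromRows]
  have h1 : ι1ᴴ * ι1 = 1 := by
    simp [ι1, Matrix.conjTranspose_fromRows_eq_fromCols_conjTranspose, Matrix.fromCols_mul_fromRows]
  have h01 : ι0ᴴ * ι1 = 0 := by
    simp [ι0, ι1, Matrix.conjTranspose_fromRows_eq_fromCols_conjTranspose,
      Matrix.fromCols_mul_fromRows]
  have hm : ∀ y : Matrix κ κ ℂ,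
      hat ι0 y * Matrix.fromBlocks 1 0 0 (-1) = Matrix.fromBlocks y 0 0 (-1) := fun y => by
    rw [hat, Matrix.conjTranspose_fromRows_eq_fromCols_conjTranspose, Matrix.fromRows_mul,
      Matrix.fromRows_mul_fromCols, ← Matrix.fromBlocks_one, Matrix.fromBlocks_add,
      Matrix.fromBlocks_multiply]
    simp
  have hς : Matrix.fromBlocks (1 : Matrix κ κ ℂ) 0 0 (-1 : Matrix κ κ ℂ) ∈ unitary _ := by
    simp [Unitary.mem_iff, Matrix.star_eq_conjTranspose, Matrix.fromBlocks_conjTranspose,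
      Matrix.fromBlocks_multiply]
  choose f f1 f2 using hH
  simp only at f2
  have gf : ∀ i s, Good fun τ => f i (s, τ) := fun i s =>
    ⟨(f1 i).comp (contDiff_const.prodMk contDiff_id), fun τ hτ => by
      simp only [f2 i s ⟨τ, hτ⟩]; exact (H _ i).2⟩
  have gp : ∀ j, Good fun τ : I → Matrix κ κ ℂ => τ j ^ d := fun j =>
    ⟨(contDiff_apply _ _ j).pow d, fun τ hτ => pow_mem (cpt ⟨τ, hτ⟩ j).2 d⟩
  have g1 := fun i s => (good_hat h0 (gf i s)).mul (good_const hς)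
  have g2 := fun j => (good_hat h0 (gp j)).mul (good_const hς)
  have k1 : Htp (fun τ j => hat ι0 (f j (0, τ)) * Matrix.fromBlocks 1 0 0 (-1))
      fun τ j => hat ι0 (f j (1, τ)) * Matrix.fromBlocks 1 0 0 (-1) :=
    Relation.EqvGen.rel _ _ ⟨fun p j => hat ι0 (f j p) * Matrix.fromBlocks 1 0 0 (-1),
      contDiff_pi.mpr fun j => (contDiff_const.add ((contDiff_conj ι0).comp
        ((f1 j).sub contDiff_const))).mul contDiff_const,
      fun s τ hτ => pi_unitary fun j => (g1 j s).2 τ hτ, rfl, rfl⟩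
  have k2 := htp_pi (fun j => g1 j 0) g2 fun j => Htp.mul
    (htp_word h0 h1 h01 (v := w j) (w := FreeGroup.of j ^ d) (by rw [hw]; simp [ab, abH]) (gf j 0) (gp j)
      (fun τ => by rw [f2, H0]) (fun τ => by simp [cpt])) (Htp.refl _) (good_hat h0 (gp j))
      (good_const hς)
  obtain ⟨τ, hτ, q, hq, h⟩ := (mxSetup I κ κ).TL (conn_pi conn_matrix) (conn_pi conn_matrix)
    hd (continuous_pi fun j => (g1 j 1).1.continuous)
    (fun τ hτ => pi_unitary fun j => (g1 j 1).2 τ hτ) (k1.symm.trans (by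
      simp only [hm] at k2 ⊢
      exact k2))
  refine ⟨⟨τ, hτ⟩, fun j => Subtype.ext ?_⟩
  rw [← f2]
  refine eq_one_of_fix (q := q j) (congrFun hq.2 j) ?_
  rw [← hm]
  exact congrFun h j

theorem ess_loc {d : ℕ} (hd : 0 < d) (w : I → FreeGroup I)
    (hw : ∀ i, ab (w i) = Finsupp.single i (d : ℤ))
    (H : ℝ × unitary (I → Matrix κ κ ℂ) → I → unitary (Matrix κ κ ℂ))
    (hH : ∀ i, Sm fun p => (H p i).1) (H0 : ∀ τ i, H (0, τ) i = FreeGroup.lift (cpt τ) (w i))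
    {Ω Ω' : Set (unitary (I → Matrix κ κ ℂ))} (ho : IsOpen Ω) (hc : IsClosed Ω') (hs : Ω ⊆ Ω')
    (z0 : ∀ τ, (∀ i, H (0, τ) i = 1) → τ ∈ Ω)
    (z1 : ∀ s ∈ Set.Icc (0 : ℝ) 1, ∀ τ ∈ Ω', (∀ i, H (s, τ) i = 1) → τ ∈ Ω) :
    ∃ τ ∈ Ω, ∀ i, H (1, τ) i = 1 := by
  have : CompactSpace (unitary (I → Matrix κ κ ℂ)) := compact_unitary
    ((mxSetup I κ κ).T ∘ₗ (mxSetup I κ κ).blk.toAlgHom.toLinearMap ∘ₗ LinearMap.inl ℝ _ _)
    fun x hx => by
      have := (mxSetup I κ κ).pos ((mxSetup I κ κ).blk (x, 0)) fun h =>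
        hx (congrArg Prod.fst ((mxSetup I κ κ).inj (h.trans (map_zero _).symm)))
      rw [← map_star, ← map_mul, Prod.star_def, Prod.mk_mul_mk, mul_zero] at this
      exact this
  let Z : Set (ℝ × unitary (I → Matrix κ κ ℂ)) :=
    (Set.Icc 0 1 ×ˢ Ω') ∩ ⋂ i, {p | (H p i).1 = 1}
  have hZ : IsCompact Z := (isCompact_Icc.prod hc.isCompact).inter_right
    (isClosed_iInter fun i => isClosed_eq (hH i).continuous continuous_const)
  have c1 : IsCompact (Subtype.val '' Ωᶜ) := ho.isClosed_compl.isCompact.image continuous_subtype_val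
  have c2 : IsCompact (Subtype.val '' (Prod.snd '' Z)) :=
    (hZ.image continuous_snd).image continuous_subtype_val
  obtain ⟨φ, hφ, p0, p1, p2⟩ := exists_smooth_sep c1.isClosed c2.isClosed (by
      rw [Set.disjoint_image_iff Subtype.val_injective, Set.disjoint_left]
      rintro _ hτ ⟨p, ⟨⟨q1, q2⟩, q3⟩, rfl⟩
      exact hτ (z1 _ q1 _ q2 fun i => Subtype.ext (Set.mem_iInter.mp q3 i)))
  obtain ⟨τ, hτ⟩ := ess hd w hw (fun p => H (p.1 * φ p.2, p.2))
    (fun i => (hH i).reparam hφ) (fun τ i => by simp [H0])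
  simp only [one_mul] at hτ
  by_cases h : τ ∈ Ω
  · have : φ τ = 1 := p1 _ ⟨τ, ⟨(φ τ, τ), ⟨⟨p2 _, hs h⟩,
      Set.mem_iInter.mpr fun i => congrArg Subtype.val (hτ i)⟩, rfl⟩, rfl⟩
    exact ⟨τ, h, this ▸ hτ⟩
  · have : φ τ = 0 := p0 _ ⟨τ, h, rfl⟩
    exact absurd (z0 τ (this ▸ hτ)) h

end Vale.Agent.P173B
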